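import Vale.Agent.P300LZ.Surf
import Vale.Agent.P300LA.Defs
import Vale.Agent.P300LX.Quo
import Vale.Agent.P300LE.Phi

/-!
# P300L: the surface side, definitions and blocks
-/

open scoped Manifold ContDiff Topology Matrix
open Set Filter NumberField
open Vale.Agent.P272.K (Cm Chart At)
open Vale.Agent.P285.H281.FD (Bd IsLB)
open Vale.Agent.P281Z (Mf Pos)
open Vale.Agent.P277Z.Slc (LEq IsDiv)
open Vale.Agent.P280Z.Gp (Lifts)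
open Vale.Agent.P288.BQ (act Unitary)
open Vale.Agent.P300LZ (Surf Same lat)
open Vale.Agent.P300LX Vale.Agent.P300LX.Dat Vale.Agent.P300LG
open Vale.Agent.P300LE (Ell Four)

noncomputable section

namespace Vale.Agent.P300L

/-- the group permutes the chosen sheets -/
def Eqv {D : Dat} (A : Arr D) {G : Type} [Group G] (B : Act D G) : Prop :=
  ∀ g α, ∀ y ∈ A.D1 α, ∃ β, B.sm g y ∈ A.D1 β

/-- the group acts by isometries of the ball -/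
structure Mat {D : Dat} (A : Arr D) {G : Type} [Group G] (B : Act D G) where
  m : G → Matrix (Fin 3) (Fin 3) ℂ
  uni : ∀ g, Unitary (p := 2) ![-A.ε, 1, 1] (m g)
  mul : ∀ g g', m (g * g') = m g * m g'
  a_eq : ∀ g, ∀ x ∈ D.Om, B.a g x = act (m g) x

/-- the curve `D1` in the compact surface -/
def G1 {D : Dat} (A : Arr D) {G : Type} [Group G] (B : Act D G) : Set B.X.X := B.q '' ⋃ α, A.D1 α

/-- two embeddings whose line bundles differ by `a G`, where `Od = O(G)`; there are enough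
sections which agree on `E` -/
structure Two (X : Mf 2) (E : Set X.X) (Od : Bd X.X) (sg : Od.ι → X.X → ℂ) : Type 1 where
  κ : Type
  O : κ → Set X.X
  N₁ : ℕ
  N₂ : ℕ
  s₁ : κ → X.X → Cm N₁
  s₂ : κ → X.X → Cm N₂
  l₁ : Lifts 2 O s₁
  l₂ : Lifts 2 O s₂
  a : ℕ
  apos : 0 < a
  c : κ → Od.ι
  sub : ∀ b, O b ⊆ Od.U (c b)
  chg : ∀ b b' x, x ∈ O b → x ∈ O b' →
    Same (s₁ b x) (s₁ b' x) (Od.g (c b) (c b') x ^ a • s₂ b x) (s₂ b' x)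
  r₁ : ∀ b, ∀ x ∈ O b, ∃ (t₁ : Cm N₁) (t₂ : Cm N₂), t₁ ⬝ᵥ s₁ b x ≠ 0 ∧
    ∀ b', ∀ y ∈ E, y ∈ O b' → t₁ ⬝ᵥ s₁ b' y = sg (c b') y ^ a * (t₂ ⬝ᵥ s₂ b' y)
  r₂ : ∀ b, ∀ x ∈ O b, ∃ (t₁ : Cm N₁) (t₂ : Cm N₂), t₂ ⬝ᵥ s₂ b x ≠ 0 ∧
    ∀ b', ∀ y ∈ E, y ∈ O b' → t₁ ⬝ᵥ s₁ b' y = sg (c b') y ^ a * (t₂ ⬝ᵥ s₂ b' y)
  r₃ : ∀ b, ∀ x ∈ O b, x ∉ E → ∃ t₁ : Cm N₁, t₁ ⬝ᵥ s₁ b x ≠ 0 ∧
    ∀ b', ∀ y ∈ E, y ∈ O b' → t₁ ⬝ᵥ s₁ b' y = 0

/-- the directions of the lines `l3 l4 l1 l2` at the fourfold point -/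
def dv4 (y2 : ℝ) : Fin 4 → Fin 2 → ℝ := ![![-59, -102], ![-15, -17], ![-16, 17], ![y2, -17 / 20]]

/-! ### The blocks -/

/-- **BUILD**: the arithmetic arrangement -/
def BUILD : Prop := P300LT.EVEN → ∀ (L : Type) [Field L] [NumberField L] [IsCMField L]
  (F : P300LA.Fld L) (P : P300LA.Pen F) (N₀ : ℕ), ∃ N, N₀ ≤ N ∧ ∃ (D : Dat) (A : Arr D) (G : Type)
    (_ : Group G) (B : Act D G), Nonempty (P300LA.Lab P N A) ∧ Eqv A B ∧ Nonempty (Mat A B)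

/-- **POS**: a positive line bundle on the compact surface -/
def POS : Prop := ∀ (D : Dat) (A : Arr D) (G : Type) [Group G] (B : Act D G), 0 < A.ε → Mat A B →
  ∃ H : Bd B.X.X, IsLB 2 H ∧ Pos 2 H

/-- **TWO**: the two embeddings -/
def TWO : Prop := ∀ (X : Mf 2) (H : Bd X.X) (G E : Set X.X) (Od : Bd X.X) (sg : Od.ι → X.X → ℂ),
  IsLB 2 H → Pos 2 H → IsDiv 2 G Od sg → (∀ x, ∃ ζ, LEq 2 E x ζ) → Disjoint G E →
  Nonempty (Two X E Od sg)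

/-- **DIVE**: the exceptional curves are smooth hypersurfaces -/
def DIVE : Prop := ∀ (D : Dat) (G : Type) [Group G] (B : Act D G) (p : D.S) (x : B.X.X),
  ∃ ζ, LEq 2 (B.q '' D.Ex p) x ζ

/-- **DIV1**: the curve `D1` is a smooth hypersurface -/
def DIV1 : Prop := ∀ (D : Dat) (A : Arr D) (G : Type) [Group G] (B : Act D G), Eqv A B →
  ∀ x, ∃ ζ, LEq 2 (G1 A B) x ζ

/-- **TRI**: a trivialisation of the pull back of `O(D1)` -/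
def TRI : Prop := ∀ (D : Dat) (A : Arr D) (G : Type) [Group G] (B : Act D G), Eqv A B →
  ∀ (Od : Bd B.X.X) (sg : Od.ι → B.X.X → ℂ), IsDiv 2 (G1 A B) Od sg → ∀ r < A.ε, ∀ f u,
    A.Triv (Bl r) f u → ∃ F : Od.ι → D.Xh → ℂ,
      (∀ i, ContinuousOn (F i) {y | nq (π y) < r ∧ B.q y ∈ Od.U i}) ∧
      (∀ i y, nq (π y) < r → B.q y ∈ Od.U i → F i y ≠ 0 ∧ sg i (B.q y) = f y * F i y) ∧
      ∀ i j y, nq (π y) < r → B.q y ∈ Od.U i → B.q y ∈ Od.U j → F i y = Od.g i j (B.q y) * F j y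

/-- **PHIQ**: the elliptic curve in the compact surface -/
def PHIQ : Prop := ∀ (D : Dat) (G : Type) [Group G] (B : Act D G) (p : D.S) (t : ℝ)
  (d : Fin 4 → Fin 2 → ℝ) (κ : ℂ) (E : Ell t d κ) (h : Four D p d κ),
  (∀ z (e : Chart 2 B.X.X), At e (B.q (E.Φ h z)) →
    AnalyticAt ℂ (fun w => e (B.q (E.Φ h w))) z ∧ deriv (fun w => e (B.q (E.Φ h w))) z ≠ 0) ∧
  ∀ z z', B.q (E.Φ h z) = B.q (E.Φ h z') ↔ ∃ g, z' = z + lat (t * Complex.I) g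

/-- **FOUR**: the fourfold point -/
def FOUR : Prop := ∀ (D : Dat) (A : Arr D) (y2 ρ : ℝ), Par A.ε y2 ρ → Clu A y2 ρ →
  ∃ p : D.S, p.1 = P0 ∧ ∃ κ : ℂ, κ ≠ 0 ∧ Four D p (dv4 y2) κ

/-- **LINK**: the lattice dies, and the winding numbers -/
def LINK : Prop := POL → WIND → ∀ (D : Dat) (A : Arr D) (y2 ρ : ℝ), Par A.ε y2 ρ → Clu A y2 ρ →
  ∀ p : D.S, p.1 = P0 → ∀ (t : ℝ) (κ : ℂ) (E : Ell t (dv4 y2) κ) (h : Four D p (dv4 y2) κ),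
    (∃ f u, A.Triv (Bl ρ) f u) →
    (∀ g, ∃ H : C(ℝ × ℝ, D.Xh), ∀ s : ℝ, H (s, 0) = E.Φ h (s * lat (t * Complex.I) g) ∧
      H (s, 1) = E.Φ h 0 ∧ H (0, s) = E.Φ h 0 ∧ H (1, s) = E.Φ h 0) ∧
    ∃ φ : ℤ × ℤ →+ ℤ, φ ≠ 0 ∧ ∀ r, ρ ≤ r → ∀ f u, A.Triv (Bl r) f u → ∃ l : C(ℂ, ℂ),
      (∀ z, Complex.exp (l z) = f (E.Φ h z)) ∧
      ∀ z g, l (z + lat (t * Complex.I) g) = l z + 2 * Real.pi * Complex.I * φ g

end Vale.Agent.P300L
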