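import Vale.Agent.P300L.Jo

/-!
# P300L, block YMF: the zero set of the join is a manifold
-/

open scoped Manifold ContDiff Topology ComplexConjugate
open Set Filter Function
open Vale.Agent.P272.K (Cm Chart At)
open Vale.Agent.P281Z
open Vale.Agent.P277Z (Hol)
open Vale.Agent.P277Z.Slc (Ind dd ind_iff_surj)

noncomputable section

namespace Vale.Agent.P300L

/-- the coefficient of `u` along `v` -/
def cf {m : ℕ} (u v : Cm m) : ℂ := (∑ k, u k * conj (v k)) / ∑ k, v k * conj (v k)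

theorem nn_ne {m : ℕ} {v : Cm m} (h : v ≠ 0) : ∑ k, v k * conj (v k) ≠ 0 := fun k => by
  simp only [Complex.mul_conj] at k
  have k' : ∑ a, Complex.normSq (v a) = 0 := by exact_mod_cast k
  rw [Finset.sum_eq_zero_iff_of_nonneg fun a _ => Complex.normSq_nonneg _] at k'
  exact h (funext fun a => Complex.normSq_eq_zero.1 (k' a (Finset.mem_univ _)))

theorem cf_smul {m : ℕ} {v : Cm m} (h : v ≠ 0) (t : ℂ) : cf (t • v) v = t := by
  unfold cf
  simp only [Pi.smul_apply, smul_eq_mul, mul_assoc, ← Finset.mul_sum]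
  exact mul_div_cancel_right₀ _ (nn_ne h)

theorem cf_cont {m : ℕ} {T : Type} [TopologicalSpace T] {u v : T → Cm m} {x : T}
    (hu : ContinuousAt u x) (hv : ContinuousAt v x) (h : v x ≠ 0) :
    ContinuousAt (fun y => cf (u y) (v y)) x := by
  have k : ∀ {f g : T → Cm m}, ContinuousAt f x → ContinuousAt g x →
      ContinuousAt (fun y => ∑ k, f y k * conj (g y k)) x := fun hf hg =>
    tendsto_finsetSum _ fun a _ => (continuousAt_pi.1 hf a).mul
      (Complex.continuous_conj.continuousAt.comp (continuousAt_pi.1 hg a))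
  exact (k hu hv).div (k hv hv) (nn_ne h)

namespace Jo

variable {n m : ℕ} {J : Jo n m}

theorem mem_Z_iff (h : J.Pre) {b : J.κ} {s : J.S.X} (hs : s ∈ J.O b) :
    s ∈ J.Z ↔ ∃ t : ℂ, J.p₁ (J.a₁ b s) = t • J.p₂ (J.a₂ b s) := by
  refine ⟨fun k => k b hs, fun ⟨t, ht⟩ b' hs' => ?_⟩
  obtain ⟨c, hc⟩ := h.lo₁.chg b' b s hs' hs
  obtain ⟨c', hc'⟩ := h.lo₂.chg b b' s hs hs'
  exact ⟨c * t * c', by rw [hc, map_smul, ht, hc', map_smul, smul_smul, smul_smul]⟩

theorem an₁ (h : J.Pre) {b : J.κ} {s : J.S.X} (hs : s ∈ J.O b) :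
    AnV n (fun y => J.p₁ (J.a₁ b y)) s := fun e he =>
  (J.p₁.analyticAt _).fun_comp (h.lo₁.hol b s hs e he)

theorem an₂ (h : J.Pre) {b : J.κ} {s : J.S.X} (hs : s ∈ J.O b) :
    AnV n (fun y => J.p₂ (J.a₂ b y)) s := fun e he =>
  (J.p₂.analyticAt _).fun_comp (h.lo₂.hol b s hs e he)

/-- the tautological factor -/
def tt (J : Jo n m) (b : J.κ) (s : J.S.X) : ℂ := cf (J.p₁ (J.a₁ b s)) (J.p₂ (J.a₂ b s))

theorem tt_cont (h : J.Pre) (g : J.Gen) {b : J.κ} {s : J.S.X} (hs : s ∈ J.O b) :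
    ContinuousAt (J.tt b) s := cf_cont (an₁ h hs).cont (an₂ h hs).cont (g.nz₂ b s hs)

theorem tt_eq (g : J.Gen) {b : J.κ} {s : J.S.X} (hs : s ∈ J.O b) {t : ℂ}
    (ht : J.p₁ (J.a₁ b s) = t • J.p₂ (J.a₂ b s)) : J.tt b s = t := by
  rw [tt, ht, cf_smul (g.nz₂ b s hs)]

theorem on_tt' (g : J.Gen) {s : J.S.X} (hs : s ∈ J.Z) (b : J.κ) (hb : s ∈ J.O b) :
    J.p₁ (J.a₁ b s) = J.tt b s • J.p₂ (J.a₂ b s) := by
  obtain ⟨t, ht⟩ := hs b hb
  rw [tt_eq g hb ht, ht]

theorem on_tt (g : J.Gen) {s : J.S.X} (hs : s ∈ J.Z) : J.On s fun b => J.tt b s := on_tt' g hs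

theorem closed_Z (h : J.Pre) (g : J.Gen) : IsClosed J.Z := by
  refine isClosed_iff_frequently.2 fun s hs b hb => ⟨J.tt b s, ?_⟩
  by_contra k
  have k1 := ((an₁ h hb).cont.sub ((tt_cont h g hb).smul (an₂ h hb).cont)).eventually_ne
    (sub_ne_zero.2 k)
  obtain ⟨y, h1, h2, h3⟩ := (hs.and_eventually (k1.and ((h.lo₁.opn b).mem_nhds hb))).exists
  exact h2 (sub_eq_zero.2 (on_tt' g h1 b h3))

theorem sec_tt (h : J.Pre) (g : J.Gen) {T : Type} [TopologicalSpace T] {i : T → J.S.X}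
    (hi : Continuous i) (hz : ∀ y, i y ∈ J.Z) : J.Sec i fun b y => J.tt b (i y) where
  cont b y hy := ((tt_cont h g hy).comp hi.continuousAt).continuousWithinAt
  ne b y hy k := g.nz₁ b _ hy (by
    have := on_tt' g (hz y) b hy
    rwa [show J.tt b (i y) = 0 from k, zero_smul] at this)
  chg b b' y hb hb' := by
    obtain ⟨c, hc⟩ := h.lo₁.chg b b' _ hb hb'
    obtain ⟨c', hc'⟩ := h.lo₂.chg b' b _ hb' hb
    refine ⟨c, hc, ?_⟩
    have k : J.tt b (i y) = c * J.tt b' (i y) * c' := tt_eq g hb (by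
      rw [hc, map_smul, on_tt' g (hz y) b' hb', hc', map_smul, smul_smul, smul_smul])
    rw [k, hc', smul_smul, smul_smul]

theorem subM_Z {d : ℕ} (hd : d + m = n + 1) (h : J.Pre) (g : J.Gen) : SubM n d J.Z := by
  intro s hs
  obtain ⟨b, hb⟩ := h.lo₁.cov s
  obtain ⟨k, hk⟩ := Function.ne_iff.1 (g.nz₂ b s hb)
  have hk : J.p₂ (J.a₂ b s) k ≠ 0 := hk
  obtain ⟨t, ht⟩ := hs b hb
  obtain ⟨m, rfl⟩ : ∃ m', m = m' + 1 := ⟨m - 1, by have := k.pos; omega⟩
  have a1 := fun a => (an₁ h hb).hol a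
  have a2 := fun a => (an₂ h hb).hol a
  refine ⟨m, fun j y => J.p₁ (J.a₁ b y) (k.succAbove j) -
    J.p₁ (J.a₁ b y) k / J.p₂ (J.a₂ b y) k * J.p₂ (J.a₂ b y) (k.succAbove j), by omega,
    ⟨fun j e he => (a1 _ e he).sub (((a1 k e he).div (a2 k e he)
      (by rw [he.left_inv]; exact hk)).mul (a2 _ e he)), fun e he => (ind_iff_surj _).2 fun w => ?_⟩, ?_⟩
  · obtain ⟨q, hq⟩ := g.tv b s hb t e he ht (k.insertNth 0 w)
    refine ⟨q.1, funext fun j => ?_⟩
    have d1 : ∀ a, HasFDerivAt (fun z => J.p₁ (J.a₁ b (e.symm z)) a) _ (e s) := fun a =>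
      hasFDerivAt_pi'.1 (J.p₁.hasFDerivAt.comp (e s)
        (h.lo₁.hol b s hb e he).differentiableAt.hasFDerivAt) a
    have d2 : ∀ a, HasFDerivAt (fun z => J.p₂ (J.a₂ b (e.symm z)) a) _ (e s) := fun a =>
      hasFDerivAt_pi'.1 (J.p₂.hasFDerivAt.comp (e s)
        (h.lo₂.hol b s hb e he).differentiableAt.hasFDerivAt) a
    have d3 := (hasFDerivAt_inv' (𝕜 := ℂ) (x := J.p₂ (J.a₂ b (e.symm (e s))) k)
      (by rw [he.left_inv]; exact hk)).comp (e s) (d2 k)
    have d4 := (d1 (k.succAbove j)).sub (((d1 k).mul d3).mul (d2 (k.succAbove j)))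
    have e1 := congrFun hq k
    have e2 := congrFun hq (k.succAbove j)
    have e3 := congrFun ht k
    simp only [Fin.insertNth_apply_same, Fin.insertNth_apply_succAbove, Pi.sub_apply,
      Pi.smul_apply, smul_eq_mul] at e1 e2 e3
    have d5 : dd (fun y => J.p₁ (J.a₁ b y) (k.succAbove j) -
        J.p₁ (J.a₁ b y) k / J.p₂ (J.a₂ b y) k * J.p₂ (J.a₂ b y) (k.succAbove j)) e s = _ :=
      d4.fderiv
    show dd _ e s q.1 = w j
    rw [d5, ← e2]
    simp only [ContinuousLinearMap.sub_apply, ContinuousLinearMap.add_apply,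
      ContinuousLinearMap.smul_apply, ContinuousLinearMap.comp_apply, comp_apply, Pi.mul_apply,
      ContinuousLinearMap.proj_apply, ContinuousLinearMap.neg_apply, smul_eq_mul,
      ContinuousLinearMap.mulLeftRight_apply, he.left_inv, e3]
    field_simp
    linear_combination (-J.p₂ (J.a₂ b s) (k.succAbove j)) * e1
  · filter_upwards [(h.lo₁.opn b).mem_nhds hb, (a2 k).continuousAt.eventually_ne hk] with y h1 h2
    rw [mem_Z_iff h h1]
    refine ⟨fun ⟨t, ht⟩ j => ?_, fun hj => ⟨J.p₁ (J.a₁ b y) k / J.p₂ (J.a₂ b y) k, funext fun a => ?_⟩⟩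
    · rw [ht, Pi.smul_apply, Pi.smul_apply, smul_eq_mul, smul_eq_mul, mul_div_cancel_right₀ _ h2,
        sub_self]
    · rcases Fin.eq_self_or_eq_succAbove k a with rfl | ⟨j, rfl⟩
      · exact (div_mul_cancel₀ _ h2).symm
      · exact sub_eq_zero.1 (hj j)

end Jo

/-- **YMF** -/
theorem ymf : YMF := fun n m d J hd h g s hs => by
  obtain ⟨V, i, hi⟩ := (Jo.subM_Z hd h g).emb (Jo.closed_Z h g).isCompact
  obtain ⟨x, rfl⟩ := hi.ex hs
  obtain ⟨Y, j, c, hj⟩ := comp_emb V x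
  have k : i '' connectedComponent x = connectedComponentIn J.Z (i x) := by
    have k1 := hi.cemb.isInducing.isPreconnected_image (s := connectedComponent x)
    refine (IsPreconnected.subset_connectedComponentIn (k1.2 isPreconnected_connectedComponent)
      ⟨x, mem_connectedComponent, rfl⟩ ?_).antisymm ?_
    · rintro _ ⟨y, -, rfl⟩
      exact hi.mem y
    · have k2 : i '' (i ⁻¹' connectedComponentIn J.Z (i x)) = connectedComponentIn J.Z (i x) :=
        image_preimage_eq_of_subset fun z hz => by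
          obtain ⟨y, rfl⟩ := hi.ex (connectedComponentIn_subset _ _ hz)
          exact ⟨y, rfl⟩
      rw [← k2]
      refine image_mono (IsPreconnected.subset_connectedComponent ?_ (mem_connectedComponentIn hs))
      rw [← hi.cemb.isInducing.isPreconnected_image, k2]
      exact isPreconnected_connectedComponentIn
  have hz : ∀ y, i (j y) ∈ J.Z := fun y => hi.mem _
  exact ⟨Y, fun y => i (j y), _, c, k ▸ hi.comp hj,
    Jo.sec_tt h g (hi.hol.cont.comp hj.hol.cont) hz, fun y => Jo.on_tt g (hz y)⟩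

end Vale.Agent.P300L
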