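import Vale.Agent.P300L.Sur
import Vale.Agent.P300LN.Join
import Vale.Agent.P300LJ.Gen
import Vale.Agent.P300LT.Even
import Vale.Agent.P300LC.Main
import Vale.Agent.P300LK.Two
import Vale.Agent.P300LO.Fin
import Vale.Agent.P300LG.Wind
import Vale.Agent.P300LQ.Pol
import Vale.Agent.P300LX.Tri
import Vale.Agent.P300LR.Four
import Vale.Agent.P300LA.Build
import Vale.Agent.P300LB.Ball
import Vale.Agent.P300LS.Large

/-!
# P300L: the final assembly
-/

namespace Vale.Agent.P300L

theorem fin : P300LS.Statement := by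
  obtain ⟨⟨P⟩, ⟨Q⟩⟩ := surf_of P300LT.even P300LA.build P300LB.pos P300LK.two P300LX.dive
    P300LX.div1 P300LX.tri P300LR.four P300LO.for_ P300LG.clu P300LQ.pol
    (P300LG.wind_of P300LQ.pol)
  exact P300LS.statement_of P300LS.large P300LC.chow (P300LN.join_of P300LJ.gen P Q)

end Vale.Agent.P300L
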