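import Vale.Agent.P300LZ.Surf
import Vale.Agent.P300LN.Defs
import Vale.Agent.P281Z.Mf.Prod
import Vale.Agent.P300.H903.UC

/-!
# P300L: the join side, definitions, blocks and assembly
-/

open scoped Manifold ContDiff Topology Matrix unitInterval
open Set Filter
open Vale.Agent.P272.K (Cm Chart At)
open Vale.Agent.P281Z
open Vale.Agent.P277Z (Hol)
open Vale.Agent.P280Z.Gp (Lifts)
open Vale.Agent.P300LZ (Surf Same)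

noncomputable section

namespace Vale.Agent.P300L

/-- the tensor product of two vectors -/
def kr {N M : ℕ} (v : Cm N) (w : Cm M) : Cm (N * M) :=
  fun i => v (finProdFinEquiv.symm i).1 * w (finProdFinEquiv.symm i).2

/-- local lifts of a holomorphic map to the projective space -/
structure Lo (n : ℕ) {X : Type} [TopologicalSpace X] [ChartedSpace (Cm n) X] {N : ℕ} {κ : Type}
    (O : κ → Set X) (t : κ → X → Cm N) : Prop where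
  opn : ∀ b, IsOpen (O b)
  cov : ∀ x, ∃ b, x ∈ O b
  hol : ∀ b, ∀ x ∈ O b, ∀ e : Chart n X, At e x → AnalyticAt ℂ (fun z => t b (e.symm z)) (e x)
  nz : ∀ b, ∀ x ∈ O b, t b x ≠ 0
  chg : ∀ b b' x, x ∈ O b → x ∈ O b' → ∃ c : ℂ, t b x = c • t b' x

/-- an embedded torus with its universal covering and a global lift `L` of the embedding -/
structure Tor (β : ℕ) : Type 1 where
  B : Mf β
  κ : Type
  O : κ → Set B.X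
  M : ℕ
  l : κ → B.X → Cm M
  lf : Lifts β O l
  π : Cm β → B.X
  cov : IsCoveringMap π
  tr : ∀ x x' u, π x = π x' → π (x + u) = π (x' + u)
  loc : ∀ y, ∃ h : B.X → Cm β, (∀ a, Hol β (fun y => h y a) y) ∧ ∀ᶠ y' in 𝓝 y, π (h y') = y'
  L : Cm β → Cm M
  cont : Continuous L
  lift : ∀ b z, π z ∈ O b → ∃ c : ℂ, c ≠ 0 ∧ L z = c • l b (π z)

/-- a manifold with two maps to projective spaces and a section `[s₁ : μ s₂]` of the join over `A` -/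
structure Pk (d : ℕ) : Type 1 where
  X : Mf d
  κ : Type
  O : κ → Set X.X
  N₁ : ℕ
  N₂ : ℕ
  s₁ : κ → X.X → Cm N₁
  s₂ : κ → X.X → Cm N₂
  A : Set X.X
  μ : κ → X.X → ℂ

/-- the properties of a `Pk` -/
structure Pk.Ok {d : ℕ} (P : Pk d) : Prop where
  l₁ : Lifts d P.O P.s₁
  l₂ : Lifts d P.O P.s₂
  μne : ∀ b, ∀ x ∈ P.A, x ∈ P.O b → P.μ b x ≠ 0
  μchg : ∀ b b', ∀ x ∈ P.A, x ∈ P.O b → x ∈ P.O b' →
    Same (P.s₁ b x) (P.s₁ b' x) (P.μ b x • P.s₂ b x) (P.μ b' x • P.s₂ b' x)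
  r₁ : ∀ b, ∀ x ∈ P.O b, ∃ (t₁ : Cm P.N₁) (t₂ : Cm P.N₂), t₁ ⬝ᵥ P.s₁ b x ≠ 0 ∧
    ∀ c, ∀ a ∈ P.A, a ∈ P.O c → t₁ ⬝ᵥ P.s₁ c a = P.μ c a * (t₂ ⬝ᵥ P.s₂ c a)
  r₂ : ∀ b, ∀ x ∈ P.O b, ∃ (t₁ : Cm P.N₁) (t₂ : Cm P.N₂), t₂ ⬝ᵥ P.s₂ b x ≠ 0 ∧
    ∀ c, ∀ a ∈ P.A, a ∈ P.O c → t₁ ⬝ᵥ P.s₁ c a = P.μ c a * (t₂ ⬝ᵥ P.s₂ c a)
  r₃ : ∀ b, ∀ x ∈ P.O b, x ∉ P.A → ∃ t₁ : Cm P.N₁, t₁ ⬝ᵥ P.s₁ b x ≠ 0 ∧
    ∀ c, ∀ a ∈ P.A, a ∈ P.O c → t₁ ⬝ᵥ P.s₁ c a = 0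

/-- the product of two surfaces -/
def pk {τ τ' : ℂ} (P : Surf τ) (Q : Surf τ') : Pk (2 + 2) where
  X := P.X.prod Q.X
  κ := P.κ × Q.κ
  O k := {x | x.1 ∈ P.O k.1 ∧ x.2 ∈ Q.O k.2}
  N₁ := P.N₁ * Q.N₁
  N₂ := P.N₂ * Q.N₂
  s₁ k x := kr (P.s₁ k.1 x.1) (Q.s₁ k.2 x.2)
  s₂ k x := kr (P.s₂ k.1 x.1) (Q.s₂ k.2 x.2)
  A := {x | x.1 ∈ range P.Φ ∧ x.2 ∈ range Q.Φ}
  μ k x := P.μ k.1 x.1 * Q.μ k.2 x.2

/-- two maps `a₁`, `a₂` to projective spaces, followed by linear maps to the same space -/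
structure Jo (n m : ℕ) : Type 1 where
  S : Mf n
  κ : Type
  O : κ → Set S.X
  K₁ : ℕ
  K₂ : ℕ
  a₁ : κ → S.X → Cm K₁
  a₂ : κ → S.X → Cm K₂
  p₁ : Cm K₁ →L[ℂ] Cm m
  p₂ : Cm K₂ →L[ℂ] Cm m

namespace Jo

variable {n m : ℕ} (J : Jo n m)

/-- the set where the two maps agree -/
def Z : Set J.S.X := {s | ∀ b, s ∈ J.O b → ∃ t : ℂ, J.p₁ (J.a₁ b s) = t • J.p₂ (J.a₂ b s)}

/-- the part of the properties which does not depend on `p₁`, `p₂` -/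
structure Pre : Prop where
  lo₁ : Lo n J.O J.a₁
  lo₂ : Lo n J.O J.a₂
  lf : Lifts n J.O fun b s => kr (J.a₁ b s) (J.a₂ b s)

/-- the generic properties: no base points, transversality -/
structure Gen : Prop where
  nz₁ : ∀ b, ∀ s ∈ J.O b, J.p₁ (J.a₁ b s) ≠ 0
  nz₂ : ∀ b, ∀ s ∈ J.O b, J.p₂ (J.a₂ b s) ≠ 0
  tv : ∀ b, ∀ s ∈ J.O b, ∀ (t : ℂ) (e : Chart n J.S.X), At e s →
    J.p₁ (J.a₁ b s) = t • J.p₂ (J.a₂ b s) → Function.Surjective fun q : Cm n × ℂ =>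
      J.p₁ (fderiv ℂ (fun z => J.a₁ b (e.symm z)) (e s) q.1) -
        t • J.p₂ (fderiv ℂ (fun z => J.a₂ b (e.symm z)) (e s) q.1) - q.2 • J.p₂ (J.a₂ b s)

/-- `[a₁ : τ a₂]` is a continuous section of the open join along the map `H` -/
structure Sec {T : Type} [TopologicalSpace T] (H : T → J.S.X) (τ : J.κ → T → ℂ) : Prop where
  cont : ∀ b, ContinuousOn (τ b) (H ⁻¹' J.O b)
  ne : ∀ b x, H x ∈ J.O b → τ b x ≠ 0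
  chg : ∀ b b' x, H x ∈ J.O b → H x ∈ J.O b' →
    Same (J.a₁ b (H x)) (J.a₁ b' (H x)) (τ b x • J.a₂ b (H x)) (τ b' x • J.a₂ b' (H x))

/-- the point `[a₁ : τ a₂]` over `s` lies on the zero set -/
def On (s : J.S.X) (τ : J.κ → ℂ) : Prop :=
  ∀ b, s ∈ J.O b → J.p₁ (J.a₁ b s) = τ b • J.p₂ (J.a₂ b s)

end Jo

/-- the join over `X × B × B` -/
def jo {d β m : ℕ} (P : Pk d) (T : Tor β) (p₁ : Cm (P.N₁ * T.M) →L[ℂ] Cm m)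
    (p₂ : Cm (P.N₂ * T.M) →L[ℂ] Cm m) : Jo (d + β + β) m where
  S := (P.X.prod T.B).prod T.B
  κ := (P.κ × T.κ) × T.κ
  O k := {s | (s.1.1 ∈ P.O k.1.1 ∧ s.1.2 ∈ T.O k.1.2) ∧ s.2 ∈ T.O k.2}
  K₁ := P.N₁ * T.M
  K₂ := P.N₂ * T.M
  a₁ k s := kr (P.s₁ k.1.1 s.1.1) (T.l k.1.2 s.1.2)
  a₂ k s := kr (P.s₂ k.1.1 s.1.1) (T.l k.2 s.2)
  p₁ := p₁
  p₂ := p₂

/-- the zero set contains `A × b₀ × b₀` with the given section, and the projection to `B × B` is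
injective elsewhere -/
structure Fit {d β m : ℕ} (P : Pk d) (T : Tor β) (b₀ : T.B.X) (p₁ : Cm (P.N₁ * T.M) →L[ℂ] Cm m)
    (p₂ : Cm (P.N₂ * T.M) →L[ℂ] Cm m) : Prop where
  mem : ∀ c, ∀ a ∈ P.A, a ∈ P.O c → ∀ j, b₀ ∈ T.O j →
    p₁ (kr (P.s₁ c a) (T.l j b₀)) = P.μ c a • p₂ (kr (P.s₂ c a) (T.l j b₀))
  fib : ∀ (x x' : P.X.X) (b b' : T.B.X), ((x, b), b') ∈ (jo P T p₁ p₂).Z →
    ((x', b), b') ∈ (jo P T p₁ p₂).Z → x = x' ∨ (x ∈ P.A ∧ x' ∈ P.A ∧ b = b₀ ∧ b' = b₀)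

/-- the second period -/
def t₂ : ℂ := ((√2 : ℝ) : ℂ) * Complex.I

/-! ### The blocks -/

/-- **TOR** -/
def TOR : Prop := ∀ β, Nonempty (Tor β)

/-- **PRD**: the product of two surfaces -/
def PRD : Prop := ∀ (τ τ' : ℂ) (P : Surf τ) (Q : Surf τ'), (pk P Q).Ok

/-- **SEG**: Segre products -/
def SEG : Prop := ∀ (d β m : ℕ) (P : Pk d) (T : Tor β) (p₁ : Cm (P.N₁ * T.M) →L[ℂ] Cm m)
  (p₂ : Cm (P.N₂ * T.M) →L[ℂ] Cm m), P.Ok → (jo P T p₁ p₂).Pre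

/-- **GEN**: the generic choice -/
def GEN : Prop := ∀ (P : Pk (2 + 2)) (T : Tor 11) (b₀ : T.B.X), P.Ok →
  ∃ (p₁ : Cm (P.N₁ * T.M) →L[ℂ] Cm 17) (p₂ : Cm (P.N₂ * T.M) →L[ℂ] Cm 17),
    (jo P T p₁ p₂).Gen ∧ Fit P T b₀ p₁ p₂

/-- **PUSH**: the theorem of Lefschetz for the join -/
def PUSH : Prop := ∀ (n m : ℕ) (J : Jo n m), m + 3 ≤ n → J.Pre → J.Gen →
  ∀ (D : C(I × I, J.S.X)) (τ : J.κ → I × I → ℂ), J.Sec D τ →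
    ∃ D' : C(I × I, J.S.X), (∀ x, D' x ∈ J.Z) ∧ ∀ x, J.On (D x) (fun b => τ b x) → D' x = D x

/-- **YMF**: the components of the zero set are manifolds; the tautological section -/
def YMF : Prop := ∀ (n m d : ℕ) (J : Jo n m), d + m = n + 1 → J.Pre → J.Gen → ∀ s ∈ J.Z,
  ∃ (Y : Mf d) (i : Y.X → J.S.X) (lam : J.κ → Y.X → ℂ), ConnectedSpace Y.X ∧
    Emb d n i (connectedComponentIn J.Z s) ∧ J.Sec i lam ∧ ∀ y, J.On (i y) fun b => lam b y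

/-- **PRJ**: a submanifold of an embedded manifold is embedded -/
def PRJ : Prop := ∀ (n d K : ℕ) (S : Mf n) (κ : Type) (O : κ → Set S.X) (t : κ → S.X → Cm K)
  (Y : Mf d) (i : Y.X → S.X) (R : Set S.X), Lifts n O t → Emb d n i R → Nonempty Y.X →
  ∃ (N : ℕ) (Φ : Y.X → Projectivization ℂ (Fin (N + 1) → ℂ)), Function.Injective Φ ∧
    P300.Final.IsProjectiveImmersion (Fin d → ℂ) Φ

/-- **END**: the data for the end of the proof -/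
def END : Prop := PUSH → ∀ (P : Surf Complex.I) (Q : Surf t₂) (T : Tor 11)
  (p₁ : Cm ((pk P Q).N₁ * T.M) →L[ℂ] Cm 17) (p₂ : Cm ((pk P Q).N₂ * T.M) →L[ℂ] Cm 17),
  (pk P Q).Ok → (jo (pk P Q) T p₁ p₂).Pre → (jo (pk P Q) T p₁ p₂).Gen →
  Fit (pk P Q) T (T.π 0) p₁ p₂ → ∀ (Y : Mf 10) (i : Y.X → (jo (pk P Q) T p₁ p₂).S.X)
    (lam : (jo (pk P Q) T p₁ p₂).κ → Y.X → ℂ),
    Emb 10 (2 + 2 + 11 + 11) i (connectedComponentIn (jo (pk P Q) T p₁ p₂).Z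
      (((P.Φ 0, Q.Φ 0), T.π 0), T.π 0)) →
    (jo (pk P Q) T p₁ p₂).Sec i lam →
    (∀ y, (jo (pk P Q) T p₁ p₂).On (i y) fun b => lam b y) →
    Nonempty (P300LN.End (Fin 10 → ℂ) Y.X)

theorem mem_Z {d β m : ℕ} {P : Pk d} {T : Tor β} {b₀ : T.B.X} {p₁ : Cm (P.N₁ * T.M) →L[ℂ] Cm m}
    {p₂ : Cm (P.N₂ * T.M) →L[ℂ] Cm m} (h : Fit P T b₀ p₁ p₂) {a : P.X.X} (ha : a ∈ P.A) :
    ((a, b₀), b₀) ∈ (jo P T p₁ p₂).Z := by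
  rintro ⟨⟨c, j⟩, j'⟩ ⟨⟨h1, h2⟩, h3⟩
  obtain ⟨u, hu⟩ := T.lf.chg j j' b₀ h2 h3
  refine ⟨P.μ c a * u, (h.mem c a ha h1 j h2).trans ?_⟩
  have : kr (P.s₂ c a) (T.l j b₀) = u • kr (P.s₂ c a) (T.l j' b₀) := by
    funext i
    simp only [kr, hu, Pi.smul_apply, smul_eq_mul]
    ring
  rw [this, map_smul, smul_smul]
  rfl

theorem core_of (h1 : TOR) (h2 : PRD) (h3 : SEG) (h4 : GEN) (h5 : PUSH) (h6 : YMF) (h7 : PRJ)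
    (h8 : END) (h9 : P300LN.NS) (P : Surf Complex.I) (Q : Surf t₂) : P300LS.Core := by
  obtain ⟨T⟩ := h1 11
  have ok := h2 _ _ P Q
  obtain ⟨p₁, p₂, g, f⟩ := h4 (pk P Q) T (T.π 0) ok
  have pre := h3 _ _ _ (pk P Q) T p₁ p₂ ok
  obtain ⟨Y, i, lam, c, e, s, o⟩ := h6 _ 17 10 (jo (pk P Q) T p₁ p₂) (by norm_num) pre g _
    (mem_Z f (a := (P.Φ 0, Q.Φ 0)) ⟨⟨0, rfl⟩, ⟨0, rfl⟩⟩)
  obtain ⟨N, Φ, k1, k2⟩ := h7 _ _ _ _ _ _ _ Y i _ pre.lf e inferInstance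
  obtain ⟨E⟩ := h8 h5 P Q T p₁ p₂ ok pre g f Y i lam e s o
  obtain ⟨V, tV, cV, p, v1, v2, v3, -, -, v4, -⟩ :=
    P300.H903.exists_universalCover (E := Fin 10 → ℂ) Y.X
  exact ⟨10, N, Y.X, Y.top, Y.ch, Φ, ⟨Y.mf, Y.t2, Y.cpt, c, k1, k2⟩,
    ⟨V, tV, cV, p, v1, v2, v3, v4⟩, fun V _ _ p hp => h9 10 Y.X E V p hp⟩

end Vale.Agent.P300L
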