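import Vale.Agent.P300L.Su
import Vale.Agent.P300LR.Link
import Vale.Agent.P300LE.PhiQ
import Vale.Agent.P300LA.Clu
import Vale.Agent.P300LD.Deep
import Vale.Agent.P277Z.Slc.Div

/-!
# P300L: the surface side, assembly
-/

open scoped Manifold ContDiff Topology Matrix
open Set Filter NumberField
open Vale.Agent.P272.K (Cm Chart At)
open Vale.Agent.P285.H281.FD (Bd IsLB)
open Vale.Agent.P281Z (Mf Pos)
open Vale.Agent.P300LZ (Surf Same lat)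
open Vale.Agent.P300LX Vale.Agent.P300LX.Dat Vale.Agent.P300LG
open Vale.Agent.P300LE (Ell Four dr cx)

noncomputable section

namespace Vale.Agent.P300L

theorem same_of {N₁ N₂ : ℕ} {y₁ y₁' : Cm N₁} {y₂ y₂' : Cm N₂} {g F F' : ℂ}
    (h : Same y₁ y₁' (g • y₂) y₂') (k : F = g * F') : Same y₁ y₁' (F • y₂) (F' • y₂') := by
  obtain ⟨e, h1, h2⟩ := h
  exact ⟨e, h1, by rw [k, mul_comm, mul_smul, h2, smul_comm]⟩

variable {D : Dat} {A : Arr D} {G : Type} [Group G] {B : Act D G}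

theorem disj (h : Eqv A B) (p : D.S) : Disjoint (G1 A B) (B.q '' D.Ex p) := by
  refine disjoint_left.2 ?_
  rintro _ ⟨y, hy, rfl⟩ ⟨y', hy', e⟩
  obtain ⟨α, hα⟩ := mem_iUnion.1 hy
  obtain ⟨g, rfl⟩ := B.q_eq_iff.1 e.symm
  obtain ⟨β, hβ, -⟩ := h g α y hα
  obtain ⟨h1, i, -, -, h2, -⟩ := (A.ver p).1 p.2
  rw [show π (B.sm g y) = p from hy'] at hβ
  exact A.dis β (.inl i) Sum.inl_ne_inr p h1 hβ h2

theorem ex_level (A : Arr D) {K : Set D.Xh} (hK : IsCompact K) {ρ : ℝ} (hρ : ρ < A.ε) :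
    ∃ r < A.ε, ρ ≤ r ∧ ∀ y ∈ K, nq (π y) < r := by
  rcases K.eq_empty_or_nonempty with rfl | hn
  · exact ⟨ρ, hρ, le_rfl, fun _ h => h.elim⟩
  obtain ⟨y, -, hy⟩ := hK.exists_isMaxOn hn (nq_cont.comp cont_π).continuousOn
  have k : nq (π y) < A.ε := by
    have := π_mem y
    rwa [A.om] at this
  obtain ⟨r, h1, h2⟩ := exists_between (max_lt k hρ)
  exact ⟨r, h2, ((le_max_right _ _).trans h1.le),
    fun z hz => (hy hz).trans_lt ((le_max_left _ _).trans_lt h1)⟩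

theorem surf_core (hT : TWO) (hE : DIVE) (h1 : DIV1) (hR : TRI) (eqv : Eqv A B) {H : Bd B.X.X}
    (hH : IsLB 2 H) (pH : Pos 2 H) {p : D.S} {t : ℝ} {d : Fin 4 → Fin 2 → ℝ} {κ : ℂ}
    (E : Ell t d κ) (h : Four D p d κ) {ρ : ℝ} (hρ : ρ < A.ε)
    (fo : ∀ r < A.ε, ∃ f u, A.Triv (Bl r) f u)
    (nul : ∀ g, ∃ H : C(ℝ × ℝ, D.Xh), ∀ s : ℝ, H (s, 0) = E.Φ h (s * lat (t * Complex.I) g) ∧
      H (s, 1) = E.Φ h 0 ∧ H (0, s) = E.Φ h 0 ∧ H (1, s) = E.Φ h 0)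
    {φ : ℤ × ℤ →+ ℤ} (φne : φ ≠ 0)
    (hl : ∀ W f u, Bl ρ ⊆ W → A.Triv W f u → ∃ l : C(ℂ, ℂ),
      (∀ z, Complex.exp (l z) = f (E.Φ h z)) ∧
      ∀ z g, l (z + lat (t * Complex.I) g) = l z + 2 * Real.pi * Complex.I * φ g) :
    Nonempty (Surf (t * Complex.I)) := by
  have := P281Z.Mf.sc B.X
  obtain ⟨Od, sg, hd⟩ := P277Z.Slc.stDiv 2 B.X.X (G1 A B) (h1 D A G B eqv)
  obtain ⟨T⟩ := hT B.X H _ _ Od sg hH pH hd (hE D G B p) (disj eqv p)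
  have m : ∀ z, B.q (E.Φ h z) ∈ B.q '' D.Ex p := fun z => ⟨_, E.π_Φ h z, rfl⟩
  refine ⟨{
    X := B.X, κ := T.κ, O := T.O, N₁ := T.N₁, N₂ := T.N₂, s₁ := T.s₁, s₂ := T.s₂, l₁ := T.l₁
    l₂ := T.l₂, Φ := fun z => B.q (E.Φ h z), cont := E.q_cont h B, hol := E.q_hol h B
    inj := E.q_inj h B, μ := fun b x => sg (T.c b) x ^ T.a
    μhol := fun b z hz => ⟨fun e he => (hd.sec.holo _ e _ he (T.sub b hz)).analyticAt.fun_pow _,
      pow_ne_zero _ fun k => disjoint_left.1 (disj eqv p)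
        ((hd.leq _ _ (T.sub b hz)).1.self_of_nhds.1 k) (m z)⟩
    μchg := fun b b' z hb hb' => same_of (T.chg b b' _ hb hb') (by
      rw [hd.sec.change _ _ _ (T.sub b hb) (T.sub b' hb'), mul_pow])
    r₁ := fun b x hx => ?_, r₂ := fun b x hx => ?_, r₃ := fun b x hx hn => ?_
    Xh := D.Xh, q := B.q, cov := B.q_cov, Φh := E.Φ h, q_Φh := fun _ => rfl, per := E.per' h
    null := ⟨1, one_pos, fun g => by simpa only [Nat.cast_one, one_mul] using nul g⟩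
    φ := (T.a : ℤ) • φ, φne := ?_, triv := fun K hK => ?_ }⟩
  · obtain ⟨t₁, t₂, k1, k2⟩ := T.r₁ b x hx
    exact ⟨t₁, t₂, k1, fun c z hz => k2 c _ (m z) hz⟩
  · obtain ⟨t₁, t₂, k1, k2⟩ := T.r₂ b x hx
    exact ⟨t₁, t₂, k1, fun c z hz => k2 c _ (m z) hz⟩
  · obtain ⟨t₁, k1, k2⟩ := T.r₃ b x hx (E.range_q h B ▸ hn)
    exact ⟨t₁, k1, fun c z hz => k2 c _ (m z) hz⟩
  · obtain ⟨g, hg⟩ := DFunLike.ne_iff.1 φne
    exact DFunLike.ne_iff.2 ⟨g, mul_ne_zero (Int.natCast_ne_zero.2 T.apos.ne') hg⟩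
  · obtain ⟨r, r1, r2, r3⟩ := ex_level A hK hρ
    obtain ⟨f, u, tr⟩ := fo r r1
    obtain ⟨F, F1, F2, F3⟩ := hR D A G B eqv Od sg hd r r1 f u tr
    obtain ⟨l, l1, l2⟩ := hl _ f u (fun z (hz : nq z ≤ ρ) => hz.trans r2) tr
    refine ⟨fun b y => F (T.c b) y ^ T.a, ⟨fun z => T.a * l z, by fun_prop⟩,
      fun b => ((F1 _).mono fun y hy => ⟨r3 y hy.1, T.sub b hy.2⟩).pow _,
      fun b y hy hb => pow_ne_zero _ (F2 _ y (r3 y hy) (T.sub b hb)).1,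
      fun b b' y hy hb hb' => same_of (T.chg b b' _ hb hb') ((congrArg (· ^ T.a)
        (F3 _ _ y (r3 y hy) (T.sub b hb) (T.sub b' hb'))).trans (mul_pow _ _ _)),
      fun b z hb hz => ?_, fun z g => ?_⟩
    · show sg (T.c b) (B.q (E.Φ h z)) ^ T.a = Complex.exp (T.a * l z) * F (T.c b) (E.Φ h z) ^ T.a
      rw [Complex.exp_nat_mul, l1, (F2 _ _ (r3 _ hz) (T.sub b hb)).2, mul_pow]
    · show (T.a : ℂ) * l (z + _) = T.a * l z + _ * (((T.a : ℤ) * φ g : ℤ) : ℂ)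
      rw [l2]
      push_cast
      ring

theorem surf_pen (ev : P300LT.EVEN) (hB : BUILD) (hP : POS) (hT : TWO) (hE : DIVE) (h1 : DIV1)
    (hR : TRI) (h4 : FOUR) (fo : FOR) (clu : CLU) (pol : POL) (wind : WIND) {L : Type} [Field L]
    [NumberField L] [IsCMField L] {F : P300LA.Fld L} (P : P300LA.Pen F) {t : ℝ}
    (ell : ∀ κ : ℂ, κ ≠ 0 → Nonempty (Ell t (dv4 P.y2) κ)) : Nonempty (Surf (t * Complex.I)) := by
  obtain ⟨ρ, par, dp⟩ := P300LD.deep _ _ ⟨_, P.par⟩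
  obtain ⟨N₀, sp⟩ := P300LA.spa L F P ρ par
  obtain ⟨N, hN, D, A, G, _, B, ⟨lab⟩, eqv, ⟨M⟩⟩ := hB ev L F P N₀
  obtain ⟨Q⟩ := sp N hN D A lab
  obtain ⟨a, ha⟩ := dp D A lab.eps Q
  rw [← lab.eps] at par
  have fo' := fo D A _ _ a ha (clu D A _ ρ par Q)
  obtain ⟨H, hH, pH⟩ := hP D A G B (by linarith [par.e1]) M
  obtain ⟨p, hp, κ, hκ, h⟩ := h4 D A _ ρ par Q
  obtain ⟨E⟩ := ell κ hκ
  have c : ∀ a b : ℝ, cx ![a, b] = ![(a : ℂ), (b : ℂ)] := fun a b => by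
    funext i
    fin_cases i <;> rfl
  obtain ⟨nul, k⟩ := P300LR.link E h pol wind A par Q hp ((c _ _).trans (by simp [dir]))
    ((c _ _).trans (by simp [dir])) ((c _ _).trans (by simp [dir]))
  obtain ⟨φ, φne, hl⟩ := k (fo' ρ par.r2)
  exact surf_core hT hE h1 hR eqv hH pH E h par.r2 fo' nul φne hl

theorem dv4_cr {L : Type} [Field L] [NumberField L] [IsCMField L] {F : P300LA.Fld L}
    (P : P300LA.Pen F) :
    0 < dr (dv4 P.y2 0) (dv4 P.y2 3) ∧ 0 < dr (dv4 P.y2 1) (dv4 P.y2 3) ∧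
      0 < dr (dv4 P.y2 2) (dv4 P.y2 3) ∧ dr (dv4 P.y2 0) (dv4 P.y2 2) ≠ 0 ∧
      dr (dv4 P.y2 0) (dv4 P.y2 1) * dr (dv4 P.y2 2) (dv4 P.y2 3) =
        P.b / P.a * (dr (dv4 P.y2 0) (dv4 P.y2 2) * dr (dv4 P.y2 1) (dv4 P.y2 3)) := by
  have h1 := P.par.y1
  have h2 := P.par.y2
  have h3 := P.apos
  have h4 := P.bpos
  have e0 : dr (dv4 P.y2 0) (dv4 P.y2 3) = -59 * (-17 / 20) - -102 * P.y2 := rfl
  have e1 : dr (dv4 P.y2 1) (dv4 P.y2 3) = -15 * (-17 / 20) - -17 * P.y2 := rfl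
  have e2 : dr (dv4 P.y2 2) (dv4 P.y2 3) = -16 * (-17 / 20) - 17 * P.y2 := rfl
  have e3 : dr (dv4 P.y2 0) (dv4 P.y2 2) = -59 * 17 - -102 * -16 := rfl
  have e4 : dr (dv4 P.y2 0) (dv4 P.y2 1) = -59 * -17 - -102 * -15 := rfl
  rw [e0, e1, e2, e3, e4]
  refine ⟨by linarith, by linarith, by linarith, by norm_num, ?_⟩
  rw [P300LA.Pen.y2]
  field_simp
  ring

theorem surf_of (ev : P300LT.EVEN) (hB : BUILD) (hP : POS) (hT : TWO) (hE : DIVE) (h1 : DIV1)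
    (hR : TRI) (h4 : FOUR) (fo : FOR) (clu : CLU) (pol : POL) (wind : WIND) :
    Nonempty (Surf Complex.I) ∧ Nonempty (Surf (((√2 : ℝ) : ℂ) * Complex.I)) := by
  obtain ⟨L, _, _, _, ⟨F⟩⟩ := P300LA.exists_fld
  constructor
  · obtain ⟨k0, k1, k2, k3, k4⟩ := dv4_cr (P300LA.penOne F)
    have := surf_pen ev hB hP hT hE h1 hR h4 fo clu pol wind (P300LA.penOne F) (t := 1)
      fun κ hκ => P300LE.ell_one hκ k0 k1 k2 k3 k4
    rwa [Complex.ofReal_one, one_mul] at this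
  · obtain ⟨k0, k1, k2, k3, k4⟩ := dv4_cr (P300LA.penTwo F)
    exact surf_pen ev hB hP hT hE h1 hR h4 fo clu pol wind (P300LA.penTwo F)
      fun κ hκ => P300LE.ell_two hκ k0 k1 k2 k3 (k4.trans (by simp [P300LA.penTwo]))

end Vale.Agent.P300L
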